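import Vale.Agent.P140W36.Rows

/-! # P140: the collision integrals -/

open MeasureTheory Set
open scoped ENNReal

namespace Vale.Agent.P140W36

open Vale.Agent.P122W36 (R3)
open Vale.Agent.P140

theorem s0_finite : IsFiniteMeasure s0 := by
  unfold s0
  infer_instance

theorem dwo_sfinite : SFinite (dwo s0) := by
  have := s0_finite
  unfold dwo
  infer_instance

theorem lint_dwo {k : R3 × R3 → ℝ≥0∞} (hk : Measurable k) :
    ∫⁻ z, k z ∂dwo s0 = Stt.sphInt fun w o => k (w, o) := by
  have := s0_finite
  rw [dwo, lintegral_prod _ hk.aemeasurable]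
  exact lintegral_congr fun w =>
    lintegral_map (hk.comp measurable_prodMk_left) measurable_subtype_coe

theorem meas_dens : Measurable fun y : ℝ × ℝ => dens y.1 y.2 := by
  unfold dens
  refine Measurable.ite ((measurableSet_lt measurable_const measurable_fst).inter
    (measurableSet_lt measurable_const measurable_snd)) (by fun_prop)
    (Measurable.ite (measurableSet_eq_fun measurable_fst measurable_snd) measurable_const
      measurable_const)

section

variable {Y : Type} [MeasurableSpace Y] {F : Y → Om → ℝ}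
  (hF : Measurable fun q : Y × Om => F q.1 q.2)

theorem meas_ang : Measurable fun y : (Y × Om) × R3 × R3 => ang y.1.2.2 y.2.1 y.2.2 := by
  unfold ang
  fun_prop

include hF

theorem meas_pre : Measurable fun y : (Y × Om) × R3 × R3 => pre (F y.1.1) y.1.2 y.2 :=
  (hF.comp measurable_fst).mul (hF.comp (f := fun y : (Y × Om) × R3 × R3 =>
    (y.1.1, y.1.2.1, y.2.1)) (by fun_prop))

theorem meas_post : Measurable fun y : (Y × Om) × R3 × R3 => post (F y.1.1) y.1.2 y.2 := by
  have h := meas_ang (Y := Y)
  exact (hF.comp (f := fun y : (Y × Om) × R3 × R3 =>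
    (y.1.1, y.1.2.1, y.1.2.2 - ang y.1.2.2 y.2.1 y.2.2 • y.2.2)) (by fun_prop)).mul
    (hF.comp (f := fun y : (Y × Om) × R3 × R3 =>
      (y.1.1, y.1.2.1, y.2.1 + ang y.1.2.2 y.2.1 y.2.2 • y.2.2)) (by fun_prop))

theorem meas_g : Measurable fun y : (Y × Om) × R3 × R3 =>
    ENNReal.ofReal (|ang y.1.2.2 y.2.1 y.2.2| * post (F y.1.1) y.1.2 y.2) :=
  (meas_ang.abs.mul (meas_post hF)).ennreal_ofReal

theorem meas_l : Measurable fun y : (Y × Om) × R3 × R3 =>
    ENNReal.ofReal (|ang y.1.2.2 y.2.1 y.2.2| * pre (F y.1.1) y.1.2 y.2) :=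
  (meas_ang.abs.mul (meas_pre hF)).ennreal_ofReal

theorem meas_d : Measurable fun y : (Y × Om) × R3 × R3 =>
    ENNReal.ofReal |ang y.1.2.2 y.2.1 y.2.2| *
      dens (post (F y.1.1) y.1.2 y.2) (pre (F y.1.1) y.1.2 y.2) :=
  meas_ang.abs.ennreal_ofReal.mul (meas_dens.comp ((meas_post hF).prodMk (meas_pre hF)))

end

theorem coll62 : COLL := by
  have := dwo_sfinite
  refine ⟨fun v => ?_, fun f hf => ?_, fun F hF => ⟨(meas_g hF).lintegral_prod_right',
    (meas_l hF).lintegral_prod_right', Measurable.const_mul ?_ _⟩⟩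
  · rw [M, Stt.Maxw, Real.rpow_neg (by positivity), Real.sqrt_eq_rpow, ← Real.rpow_natCast _ 3,
      ← Real.rpow_mul (by positivity), neg_div, div_eq_inv_mul (Real.exp _)]
    norm_num
  · have hF : Measurable fun q : Unit × Om => (fun _ => f) q.1 q.2 := hf.comp measurable_snd
    have h0 : ∀ p : Om, Measurable fun z : R3 × R3 => (((), p), z) := fun p => by fun_prop
    have hg := meas_g (F := fun _ => f) hF
    have hl := meas_l (F := fun _ => f) hF
    have hd := meas_d (F := fun _ => f) hF
    refine ⟨fun p => (lint_dwo (hg.comp (h0 p))).trans ?_,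
      fun p => (lint_dwo (hl.comp (h0 p))).trans ?_, ?_⟩
    · simp only [Function.comp_apply, ENNReal.ofReal_mul (abs_nonneg _)]
      rfl
    · simp only [Function.comp_apply, ENNReal.ofReal_mul (abs_nonneg _)]
      rfl
    · have h1 := hd.comp (f := fun y : Om × R3 × R3 => (((), y.1), y.2)) (by fun_prop)
      refine congrArg _ ((lintegral_prod _ h1.aemeasurable).trans ?_)
      rw [Measure.volume_eq_prod, lintegral_prod _ h1.lintegral_prod_right'.aemeasurable]
      exact lintegral_congr fun x => lintegral_congr fun v =>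
        lint_dwo (hd.comp (h0 (x, v)))
  · exact ((meas_d hF).comp (f := fun y : ℝ × Om × R3 × R3 => ((y.1, y.2.1), y.2.2))
      (by fun_prop)).lintegral_prod_right'

end Vale.Agent.P140W36
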